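import Vale.Agent.N133.Top

/-!
# P133: weak pure infiniteness and the growth of the exactness constants
-/

namespace Vale.Agent.Results.P133.A0ExactGrowth

universe u v

open Vale.Agent.N133

/-- Let `K` be the compact operators with matrix units `e`; Cuntz comparison takes place in a
C*-completion `B` of `C ⊗ K`. `AmpInf T e n` says that `diag (h, …, h)` (`n` times) is properly
infinite for every `h ≥ 0` in `C`; for some `n ≥ 1` this is weak pure infiniteness.
(1) For every `n ≥ 1` there is `c > 0` such that every C*-algebra with `AmpInf T e n` whose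
exactness constant on tensors of rank `d` is at most `c √d` for one `d ≥ 1` is strongly purely
infinite.
(2) Exact iff all these exactness constants are at most `1`. -/
theorem result :
    (∀ (K : Type) [NonUnitalCStarAlgebra K] (e : ℕ → ℕ → K), IsCompacts e →
      ∀ n : ℕ, 1 ≤ n → ∃ c : ℝ, 0 < c ∧
        ∀ (C : Type u) [NonUnitalCStarAlgebra C] [PartialOrder C] [StarOrderedRing C] (B : Type v)
          [NonUnitalCStarAlgebra B] (T : C → K → B), IsTensor T → AmpInf T e n →
          ∀ d : ℕ, 1 ≤ d → ExConst C d (c * √d) → SPI C) ∧
    ∀ (C : Type u) [NonUnitalCStarAlgebra C], Exact C ↔ ∀ d : ℕ, ExConst C d 1 :=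
  ⟨fun _ _ _ he _ hn => growth he hn, fun C _ => exact_iff C⟩

end Vale.Agent.Results.P133.A0ExactGrowth
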