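import Vale.Agent.N133X.Weak

/-!
# P133 (b): weakly purely infinite versus purely infinite
-/

namespace Vale.Agent.Results.P133.A0Subexponential

universe u v w

open Vale.Agent.N133X
open scoped ComplexOrder

/-- `B = C ⊗ 𝒦` with `E i j a = a ⊗ e_ij`; `AmpInf E 1` is pure infiniteness.
(1) A weakly purely infinite quotient of a subexponential C*-algebra is purely infinite.
(2) In a counterexample to (b) there are, for all `d`, self-adjoint contractions `y i ∈ M_n(C)` with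
`‖∑ W i ⊗ y i‖ ≥ c d` for all self-adjoint contractions `W i ∈ M_N` which are not too thin.
(3) Domination of the `d`-tuples of `C` by matrices of size `exp (c d N)`, for one large `d`, gives
pure infiniteness.
(4) Size `exp (20 d ^ 2 N)` is possible for every `C`, size `exp (l N)` for nuclearly embedded
`C`. -/
theorem result :
    (∀ (C : Type u) [NonUnitalCStarAlgebra C] [PartialOrder C] [StarOrderedRing C] (B : Type v)
      [NonUnitalCStarAlgebra B] (E : Fam C B), IsStab E →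
      ∀ (D : Type w) [NonUnitalCStarAlgebra D] [PartialOrder D] [StarOrderedRing D],
        SubExp D → Onto D C → WPI E → AmpInf E 1) ∧
    (∀ n : ℕ, 1 ≤ n → ∀ δ : ℝ, 0 < δ → ∃ c : ℝ, 0 < c ∧
      ∀ (C : Type u) [NonUnitalCStarAlgebra C] [PartialOrder C] [StarOrderedRing C] (B : Type v)
        [NonUnitalCStarAlgebra B] (E : Fam C B), IsStab E → AmpInf E n → ¬ AmpInf E 1 →
        ∀ d : ℕ, 1 ≤ d → ∃ y : Fin d → Mat n C, SaC y ∧
          ∀ N : ℕ, 1 ≤ N → ∀ W : Fin d → Mat N ℂ, SaC W →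
            δ * d * N ≤ ∑ i, ∑ p, ∑ q, ‖W i p q‖ ^ 2 → c * d ≤ tn W y) ∧
    (∀ n : ℕ, 1 ≤ n → ∀ κ : ℝ, 0 < κ → ∃ c : ℝ, 0 < c ∧ ∃ d₀ : ℕ,
      ∀ (C : Type u) [NonUnitalCStarAlgebra C] [PartialOrder C] [StarOrderedRing C] (B : Type v)
        [NonUnitalCStarAlgebra B] (E : Fam C B), IsStab E → AmpInf E n →
        ∀ d : ℕ, d₀ ≤ d → Dom C κ d (c * d) → AmpInf E 1) ∧
    ∀ (C : Type u) [NonUnitalCStarAlgebra C] [PartialOrder C] [StarOrderedRing C] (d : ℕ),
      Dom C 3 d (20 * d ^ 2) ∧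
        ∀ (D : Type w) [NonUnitalCStarAlgebra D] [PartialOrder D] [StarOrderedRing D],
          NucEmb C D → ∀ l : ℝ, 0 < l → Dom C 2 d l :=
  ⟨fun _ _ _ _ _ _ _ h => h.sub2, fun _ hn _ hδ => large2 hn hδ, fun _ hn _ hκ => dom2 hn hκ,
    fun _ _ _ _ _ => ⟨dom_univ, fun _ _ _ _ ⟨ι, h, h'⟩ _ hl => dom_nuc ι h h' hl⟩⟩

end Vale.Agent.Results.P133.A0Subexponential
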